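import Crest.Agent.R95.Defs

/-! # Row 95: elementary properties of the trace and the 2-norm -/

set_option autoImplicit false

namespace Crest.Agent.R95

open Filter Topology
open scoped ComplexConjugate InnerProductSpace

universe u

variable {A : Type u} [CStarAlgebra A]

namespace Tr

variable (τ : Tr A)

/-- `A` with the trace inner product `⟪x, y⟫ = τ (x⋆ y)` -/
def L2 (_τ : Tr A) : Type u := A

instance : AddCommGroup τ.L2 := inferInstanceAs (AddCommGroup A)
instance : Module ℂ τ.L2 := inferInstanceAs (Module ℂ A)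

/-- the identity map to `L2` -/
noncomputable def toL2 : A ≃ₗ[ℂ] τ.L2 := LinearEquiv.refl ℂ A

/-- the pre-inner product -/
@[reducible] noncomputable def core : PreInnerProductSpace.Core ℂ τ.L2 where
  inner x y := τ.φ (Star.star (τ.toL2.symm x) * τ.toL2.symm y)
  conj_inner_symm x y := by
    change conj (τ.φ _) = τ.φ _
    rw [← τ.star, star_mul, star_star]
  re_inner_nonneg x := τ.pos _
  add_left x y z := by
    change τ.φ _ = τ.φ _ + τ.φ _
    rw [map_add, star_add, add_mul, map_add]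
  smul_left x y r := by
    change τ.φ _ = _ * τ.φ _
    rw [map_smul, star_smul, smul_mul_assoc, map_smul]; rfl

noncomputable instance : SeminormedAddCommGroup τ.L2 :=
  InnerProductSpace.Core.toSeminormedAddCommGroup (𝕜 := ℂ) (c := τ.core)

noncomputable instance : InnerProductSpace ℂ τ.L2 := InnerProductSpace.ofCore τ.core

theorem inner_toL2 (x y : A) : ⟪τ.toL2 x, τ.toL2 y⟫_ℂ = τ.φ (Star.star x * y) := rfl

theorem norm_toL2 (x : A) : ‖τ.toL2 x‖ = τ.n2 x := rfl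

theorem n2_nonneg (x : A) : 0 ≤ τ.n2 x := Real.sqrt_nonneg _

theorem n2_sq (x : A) : τ.n2 x ^ 2 = (τ.φ (Star.star x * x)).re := Real.sq_sqrt (τ.pos x)

theorem phi_star_mul_self (x : A) : τ.φ (Star.star x * x) = ((τ.n2 x ^ 2 : ℝ) : ℂ) := by
  rw [← τ.inner_toL2, inner_self_eq_norm_sq_to_K, norm_toL2]; simp

theorem n2_zero : τ.n2 0 = 0 := by simp [n2]

theorem n2_add_le (x y : A) : τ.n2 (x + y) ≤ τ.n2 x + τ.n2 y := by
  simpa only [← norm_toL2, map_add] using norm_add_le _ _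

theorem n2_neg (x : A) : τ.n2 (-x) = τ.n2 x := by simp only [← norm_toL2, map_neg, norm_neg]

theorem n2_sub_le (x y : A) : τ.n2 (x - y) ≤ τ.n2 x + τ.n2 y := by
  simpa only [← norm_toL2, map_sub] using norm_sub_le _ _

theorem n2_sub_comm (x y : A) : τ.n2 (x - y) = τ.n2 (y - x) := by
  rw [← τ.n2_neg, neg_sub]

theorem n2_triangle (x y z : A) : τ.n2 (x - z) ≤ τ.n2 (x - y) + τ.n2 (y - z) := by
  simpa using τ.n2_add_le (x - y) (y - z)

theorem n2_smul (c : ℂ) (x : A) : τ.n2 (c • x) = ‖c‖ * τ.n2 x := by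
  simp only [← norm_toL2, map_smul, norm_smul]

theorem n2_sum_le {ι : Type*} (s : Finset ι) (x : ι → A) :
    τ.n2 (∑ i ∈ s, x i) ≤ ∑ i ∈ s, τ.n2 (x i) := by
  simpa only [← norm_toL2, map_sum] using norm_sum_le _ _

/-- Cauchy–Schwarz -/
theorem cs (x y : A) : ‖τ.φ (Star.star x * y)‖ ≤ τ.n2 x * τ.n2 y :=
  norm_inner_le_norm (𝕜 := ℂ) (τ.toL2 x) (τ.toL2 y)

theorem n2_star (x : A) : τ.n2 (Star.star x) = τ.n2 x := by
  simp only [n2, star_star]; rw [τ.comm]

theorem cs' (x y : A) : ‖τ.φ (x * y)‖ ≤ τ.n2 x * τ.n2 y := by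
  have := τ.cs (Star.star x) y
  rwa [star_star, n2_star] at this

theorem n2_one : τ.n2 1 = 1 := by simp [n2, τ.one]

theorem norm_phi_le_n2 (x : A) : ‖τ.φ x‖ ≤ τ.n2 x := by
  simpa [n2_one] using τ.cs' 1 x

theorem n2_add_sq (x y : A) :
    τ.n2 (x + y) ^ 2 = τ.n2 x ^ 2 + 2 * (τ.φ (Star.star x * y)).re + τ.n2 y ^ 2 := by
  simp only [← norm_toL2, map_add]; exact norm_add_sq (𝕜 := ℂ) (τ.toL2 x) (τ.toL2 y)

theorem n2_sub_sq (x y : A) :
    τ.n2 (x - y) ^ 2 = τ.n2 x ^ 2 - 2 * (τ.φ (Star.star x * y)).re + τ.n2 y ^ 2 := by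
  simp only [← norm_toL2, map_sub]; exact norm_sub_sq (𝕜 := ℂ) (τ.toL2 x) (τ.toL2 y)

theorem n2_mul_le_left (a x : A) : τ.n2 (a * x) ≤ ‖a‖ * τ.n2 x := by
  let _ := CStarAlgebra.spectralOrder A
  have := CStarAlgebra.spectralOrderedRing A
  have h0 : (0 : A) ≤ algebraMap ℝ A (‖a‖ ^ 2) - Star.star a * a := by
    rw [sub_nonneg, sq, ← CStarRing.norm_star_mul_self]
    exact IsSelfAdjoint.le_algebraMap_norm_self (.star_mul_self a)
  obtain ⟨z, hz⟩ : ∃ z : A, Star.star z * z = algebraMap ℝ A (‖a‖ ^ 2) - Star.star a * a :=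
    ⟨CFC.sqrt _, by rw [(IsSelfAdjoint.of_nonneg (CFC.sqrt_nonneg _)).star_eq,
      CFC.sqrt_mul_sqrt_self _ h0]⟩
  have h1 := τ.pos (z * x)
  have e : Star.star (z * x) * (z * x) =
      ((‖a‖ ^ 2 : ℝ) : ℂ) • (Star.star x * x) - Star.star (a * x) * (a * x) := by
    rw [star_mul, star_mul, mul_assoc, ← mul_assoc (Star.star z), hz, Algebra.algebraMap_eq_smul_one,
      sub_mul, mul_sub, smul_mul_assoc, one_mul, mul_smul_comm, Complex.coe_smul]
    simp only [mul_assoc]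
  rw [e, map_sub, map_smul, phi_star_mul_self, phi_star_mul_self, smul_eq_mul, ← Complex.ofReal_mul,
    ← Complex.ofReal_sub, Complex.ofReal_re] at h1
  refine le_of_sq_le_sq ?_ (mul_nonneg (norm_nonneg _) (τ.n2_nonneg _))
  rw [mul_pow]; linarith

theorem n2_mul_le_right (x a : A) : τ.n2 (x * a) ≤ τ.n2 x * ‖a‖ := by
  rw [← n2_star, star_mul, mul_comm, ← norm_star a, ← τ.n2_star x]
  exact τ.n2_mul_le_left _ _

include τ in
theorem nontrivial : Nontrivial A :=
  ⟨⟨1, 0, fun h => by have := τ.one; rw [h, map_zero] at this; exact zero_ne_one this⟩⟩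

theorem n2_le_norm (x : A) : τ.n2 x ≤ ‖x‖ := by
  simpa [n2_one] using τ.n2_mul_le_left x 1

theorem norm_phi_le (x : A) : ‖τ.φ x‖ ≤ ‖x‖ := (τ.norm_phi_le_n2 x).trans (τ.n2_le_norm x)

theorem n2_unitary_mul {u : A} (hu : u ∈ unitary A) (x : A) : τ.n2 (u * x) = τ.n2 x := by
  simp only [n2, star_mul]
  rw [mul_assoc, ← mul_assoc (Star.star u), Unitary.star_mul_self_of_mem hu, one_mul]

theorem n2_mul_unitary {u : A} (hu : u ∈ unitary A) (x : A) : τ.n2 (x * u) = τ.n2 x := by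
  rw [← n2_star, star_mul, n2_unitary_mul _ (Unitary.star_mem hu), n2_star]

theorem n2_unitary {u : A} (hu : u ∈ unitary A) : τ.n2 u = 1 := by
  simpa [n2_one] using τ.n2_unitary_mul hu 1

include τ in
theorem norm_unitary {u : A} (hu : u ∈ unitary A) : ‖u‖ = 1 := by
  have := τ.nontrivial
  exact CStarRing.norm_of_mem_unitary hu

theorem n2_proj_sq {e : A} (he : IsStarProjection e) : τ.n2 e ^ 2 = (τ.φ e).re := by
  rw [n2_sq, he.isSelfAdjoint.star_eq, he.isIdempotentElem.eq]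

theorem phi_proj {e : A} (he : IsStarProjection e) : τ.φ e = ((τ.φ e).re : ℂ) := by
  have := τ.phi_star_mul_self e
  rw [he.isSelfAdjoint.star_eq, he.isIdempotentElem.eq] at this
  rw [this, Complex.ofReal_re]

theorem proj_nonneg {e : A} (he : IsStarProjection e) : 0 ≤ (τ.φ e).re := by
  rw [← τ.n2_proj_sq he]; positivity

theorem proj_le_one {e : A} (he : IsStarProjection e) : (τ.φ e).re ≤ 1 := by
  have := τ.proj_nonneg he.one_sub
  rw [map_sub, τ.one] at this
  simpa using this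

theorem proj_pos (hτ : τ.Faithful) {e : A} (he : IsStarProjection e) (h0 : e ≠ 0) :
    0 < (τ.φ e).re := by
  rw [← τ.n2_proj_sq he]
  exact pow_pos (lt_of_le_of_ne (τ.n2_nonneg e) fun h => h0 (hτ e h.symm)) 2

/-- `|τ (q y)| ≤ τ q ‖y‖` for a projection `q` -/
theorem norm_phi_proj_mul {q : A} (hq : IsStarProjection q) (y : A) :
    ‖τ.φ (q * y)‖ ≤ (τ.φ q).re * ‖y‖ := by
  have e : τ.φ (q * y) = τ.φ (q * (y * q)) := by
    rw [← mul_assoc, τ.comm (q * y) q, ← mul_assoc, hq.isIdempotentElem.eq]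
  rw [e, ← τ.n2_proj_sq hq]
  refine (τ.cs' _ _).trans ?_
  rw [sq, mul_assoc]
  exact mul_le_mul_of_nonneg_left ((τ.n2_mul_le_left _ _).trans (le_of_eq (mul_comm _ _)))
    (τ.n2_nonneg _)

theorem continuous_n2 : Continuous τ.n2 := by
  unfold n2; fun_prop

end Tr

end Crest.Agent.R95
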