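import Mathlib

/-!
# Row 95 (S0125, S0126): the generator problem.  Abstract tracial setting.

All the analysis is done in a C⋆-algebra `A` with a tracial state `τ`.  A ⋆-subalgebra is
*weakly closed* (`IsW`) if norm-bounded sequences which are Cauchy for `‖·‖₂` have a limit in it.
-/

set_option autoImplicit false

namespace Crest.Agent.R95

open Filter Topology
open scoped ComplexConjugate

universe u

variable {A : Type u} [CStarAlgebra A]

/-- a tracial state -/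
structure Tr (A : Type u) [CStarAlgebra A] where
  φ : A →L[ℂ] ℂ
  one : φ 1 = 1
  comm : ∀ x y, φ (x * y) = φ (y * x)
  star : ∀ x, φ (star x) = conj (φ x)
  pos : ∀ x, 0 ≤ (φ (Star.star x * x)).re

/-- the trace 2-(semi)norm -/
noncomputable def Tr.n2 (τ : Tr A) (x : A) : ℝ := √(τ.φ (Star.star x * x)).re

/-- faithfulness -/
def Tr.Faithful (τ : Tr A) : Prop := ∀ x, τ.n2 x = 0 → x = 0

/-- weak closedness of a ⋆-subalgebra -/
def IsW (τ : Tr A) (N : StarSubalgebra ℂ A) : Prop :=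
  ∀ (x : ℕ → A) (C : ℝ), (∀ n, x n ∈ N) → (∀ n, ‖x n‖ ≤ C) →
    (∀ ε > 0, ∃ n₀, ∀ m ≥ n₀, ∀ n ≥ n₀, τ.n2 (x m - x n) < ε) →
    ∃ y ∈ N, ‖y‖ ≤ C ∧ Tendsto (fun n => τ.n2 (x n - y)) atTop (𝓝 0)

/-- `P` is a finite factor -/
structure Fac (τ : Tr A) (P : StarSubalgebra ℂ A) : Prop where
  faithful : τ.Faithful
  W : IsW τ P
  fac : ∀ x ∈ P, (∀ y ∈ P, x * y = y * x) → ∃ c : ℂ, x = c • (1 : A)

/-- `P` has nonzero projections of arbitrarily small trace -/
def Diffuse (τ : Tr A) (P : StarSubalgebra ℂ A) : Prop :=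
  ∀ δ > 0, ∃ e ∈ P, IsStarProjection e ∧ e ≠ 0 ∧ (τ.φ e).re ≤ δ

/-- `P ⊆ A` is an irreducible inclusion of II₁ factors -/
structure Irr (τ : Tr A) (P : StarSubalgebra ℂ A) : Prop where
  faithful : τ.Faithful
  top : IsW τ ⊤
  W : IsW τ P
  irr : ∀ x, (∀ y ∈ P, x * y = y * x) → ∃ c : ℂ, x = c • (1 : A)
  diffuse : Diffuse τ P

theorem Irr.fac {τ : Tr A} {P : StarSubalgebra ℂ A} (h : Irr τ P) : Fac τ P :=
  ⟨h.faithful, h.W, fun x _ hx => h.irr x hx⟩

theorem Irr.to_top {τ : Tr A} {P : StarSubalgebra ℂ A} (h : Irr τ P) : Irr τ ⊤ :=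
  ⟨h.faithful, h.top, h.top, fun x hx => h.irr x fun y _ => hx y trivial,
    fun δ hδ => let ⟨e, _, he⟩ := h.diffuse δ hδ; ⟨e, trivial, he⟩⟩

/-- separability for `‖·‖₂` -/
def Sep (τ : Tr A) : Prop :=
  ∃ D : Set A, D.Countable ∧ ∀ x, ∀ ε > 0, ∃ d ∈ D, τ.n2 (x - d) < ε

/-- `x` is in the `‖·‖₂`-closure of `B` -/
def InCl (τ : Tr A) (B : StarSubalgebra ℂ A) (x : A) : Prop :=
  ∀ ε > 0, ∃ b ∈ B, τ.n2 (x - b) < ε

/-- the set `S` generates `A` (as a von Neumann algebra) -/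
def Gen (τ : Tr A) (S : Set A) : Prop := ∀ x, InCl τ (StarAlgebra.adjoin ℂ S) x

/-- the word `x₁ b^{±} x₂ b^{±} ⋯` -/
def wd (b : A) (L : List (A × Bool)) : A :=
  (L.map fun p => p.1 * (if p.2 then b else star b)).prod

/-- admissible words: between letters of opposite sign there is a centred element -/
def Adm (τ : Tr A) (L : List (A × Bool)) : Prop :=
  L.IsChain fun p p' => p.2 ≠ p'.2 → τ.φ p'.1 = 0

/-- a word in a family of unitaries -/
def gw {Γ : Type*} (c : Γ → A) (L : List (Γ × Bool)) : A :=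
  (L.map fun p => if p.2 then c p.1 else star (c p.1)).prod

open Classical in
/-- exponent sum of the letter `γ` -/
noncomputable def expo {Γ : Type*} (γ : Γ) (L : List (Γ × Bool)) : ℤ :=
  (L.map fun p => if p.1 = γ then (if p.2 then (1 : ℤ) else -1) else 0).sum

/-- labels of the conjugates of `c` -/
abbrev Lab (k : ℕ) := Option {p : Fin k × Fin k // p.1 ≠ p.2}

/-- the label of the pair `(i, j)` -/
def lab {k : ℕ} (i j : Fin k) : Lab k := if h : i = j then none else some ⟨(i, j), h⟩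

/-- the skew-adjoint elements `H i` -/
noncomputable def HH {k : ℕ} (κ : ℝ) (c : Lab k → A) (i : Fin k) : A :=
  ((κ / k : ℝ) : ℂ) • ∑ j : Fin k, (star (c (lab i j)) - c (lab i j))

end Crest.Agent.R95
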